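import Vale.Agent.P227.M.ID.Flat

/-! # Integration by parts for Lipschitz functions against `e^{-V}` -/

open MeasureTheory Filter Topology Set
open scoped ContDiff

namespace Vale.Agent.P227.M.KX

open Vale.Agent.P227.M.Flat

variable {n : ℕ}

theorem sm_pd {f : E n → ℝ} {i : Fin n} (hf : ContDiff ℝ ∞ f) : ContDiff ℝ ∞ (pd i f) := by
  have h : ContDiff ℝ ∞ (fderiv ℝ f) := hf.fderiv_right (by simp)
  exact h.clm_apply contDiff_const

theorem test_pd {f : E n → ℝ} {i : Fin n} (hf : Test f) : Test (pd i f) :=
  ⟨sm_pd hf.1, hcs_pd hf.2⟩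

theorem sm1 {f : E n → ℝ} (hf : ContDiff ℝ ∞ f) : ContDiff ℝ 1 f := hf.of_le (by exact_mod_cast le_top)

theorem smd {f : E n → ℝ} (hf : ContDiff ℝ ∞ f) (x : E n) : DifferentiableAt ℝ f x :=
  (hf.differentiable (by simp)) x

theorem ci {f : E n → ℝ} (h1 : Continuous f) (h2 : HasCompactSupport f) : Integrable f :=
  h1.integrable_of_hasCompactSupport h2

/-- integration by parts, smooth -/
theorem ibp {V f g : E n → ℝ} (hV : ContDiff ℝ ∞ V) (hf : Test f) (hg : ContDiff ℝ ∞ g) (i : Fin n) :
    ∫ x, pd i f x * g x * Real.exp (-V x) =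
      ∫ x, f x * (pd i V x * g x - pd i g x) * Real.exp (-V x) :=
  ibp_smooth (sm1 hV) (sm1 hf.1) hf.2 (sm1 hg) i

theorem bp0_smooth {V f : E n → ℝ} (hV : ContDiff ℝ ∞ V) (hf : Test f) (i : Fin n) :
    ∫ x, (pd i f x - pd i V x * f x) * Real.exp (-V x) = 0 := by
  have h := ibp hV hf (g := fun _ => (1 : ℝ)) contDiff_const i
  have h1 : ∀ x, pd i (fun _ : E n => (1 : ℝ)) x = 0 := fun x => by simp [pd]
  simp only [h1, mul_one, sub_zero] at h
  have hE : Continuous fun x => Real.exp (-V x) := by
    have := hV.continuous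
    fun_prop
  have i1 : Integrable (fun x => pd i f x * Real.exp (-V x)) :=
    ci ((sm_pd hf.1).continuous.mul hE) ((hcs_pd hf.2).mul_right)
  have i2 : Integrable (fun x => f x * pd i V x * Real.exp (-V x)) :=
    ci ((hf.1.continuous.mul (sm_pd hV).continuous).mul hE) ((hf.2.mul_right).mul_right)
  have h2 : ∫ x, (pd i f x - pd i V x * f x) * Real.exp (-V x) =
      ∫ x, (pd i f x * Real.exp (-V x) - f x * pd i V x * Real.exp (-V x)) :=
    integral_congr_ae (Eventually.of_forall fun x => by ring)
  rw [h2, integral_sub i1 i2, h, sub_self]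

theorem bp2_smooth {V f g : E n → ℝ} (hV : ContDiff ℝ ∞ V) (hf : Test f) (hg : Test g)
    (i k : Fin n) :
    ∫ x, pd i f x * (pd k g x - pd k V x * g x) * Real.exp (-V x) =
      -∫ x, g x * pd k (pd i f) x * Real.exp (-V x) := by
  have h := ibp hV hg (g := pd i f) (sm_pd hf.1) k
  have hE : Continuous fun x => Real.exp (-V x) := by
    have := hV.continuous
    fun_prop
  have i1 : Integrable (fun x => pd k g x * pd i f x * Real.exp (-V x)) :=
    ci (((sm_pd hg.1).continuous.mul (sm_pd hf.1).continuous).mul hE)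
      (((hcs_pd hg.2).mul_right).mul_right)
  have i2 : Integrable (fun x => g x * (pd k V x * pd i f x) * Real.exp (-V x)) :=
    ci ((hg.1.continuous.mul ((sm_pd hV).continuous.mul (sm_pd hf.1).continuous)).mul hE)
      ((hg.2.mul_right).mul_right)
  have i3 : Integrable (fun x => g x * pd k (pd i f) x * Real.exp (-V x)) :=
    ci ((hg.1.continuous.mul (sm_pd (sm_pd hf.1)).continuous).mul hE) ((hg.2.mul_right).mul_right)
  have h3 : ∫ x, g x * (pd k V x * pd i f x - pd k (pd i f) x) * Real.exp (-V x) =
      (∫ x, g x * (pd k V x * pd i f x) * Real.exp (-V x)) -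
        ∫ x, g x * pd k (pd i f) x * Real.exp (-V x) := by
    rw [← integral_sub i2 i3]
    exact integral_congr_ae (Eventually.of_forall fun x => by ring)
  have h4 : ∫ x, pd i f x * (pd k g x - pd k V x * g x) * Real.exp (-V x) =
      (∫ x, pd k g x * pd i f x * Real.exp (-V x)) -
        ∫ x, g x * (pd k V x * pd i f x) * Real.exp (-V x) := by
    rw [← integral_sub i1 i2]
    exact integral_congr_ae (Eventually.of_forall fun x => by ring)
  rw [h4, h, h3]
  ring

theorem bp3_smooth {V a b : E n → ℝ} (hV : ContDiff ℝ ∞ V) (ha : Test a) (hb : Test b)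
    (i j : Fin n) :
    ∫ x, (pd i a x - pd i V x * a x) * (pd j b x - pd j V x * b x) * Real.exp (-V x) =
      ∫ x, (pd j a x * pd i b x + hess V x i j * a x * b x) * Real.exp (-V x) := by
  have hE : Continuous fun x => Real.exp (-V x) := by
    have := hV.continuous
    fun_prop
  have hh : ContDiff ℝ ∞ (fun x => pd j b x - pd j V x * b x) :=
    (sm_pd hb.1).sub ((sm_pd hV).mul hb.1)
  have h := ibp hV ha hh i
  have hpt : ∀ x, pd i (fun x => pd j b x - pd j V x * b x) x =
      pd i (pd j b) x - (hess V x i j * b x + pd j V x * pd i b x) := by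
    intro x
    have h1 : pd i (fun x => pd j b x - pd j V x * b x) x =
        pd i (pd j b) x - pd i (fun y => pd j V y * b y) x :=
      pd_sub (smd (sm_pd hb.1) x) ((smd (sm_pd hV) x).mul (smd hb.1 x))
    have h2 : pd i (fun y => pd j V y * b y) x = pd i (pd j V) x * b x + pd j V x * pd i b x :=
      pd_mul (smd (sm_pd hV) x) (smd hb.1 x)
    rw [h1, h2]
    rfl
  have h2 := ibp hV (test_pd (i := i) hb) ha.1 j
  have hcomm : ∀ x, pd i (pd j b) x = pd j (pd i b) x :=
    fun x => pd_comm (contDiff_infty.mp hb.1 2) i j x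
  have hhc : Continuous (fun x => hess V x i j) := (sm_pd (sm_pd hV)).continuous
  have hVi : Continuous (pd i V) := (sm_pd hV).continuous
  have hVj : Continuous (pd j V) := (sm_pd hV).continuous
  have ca : Continuous a := ha.1.continuous
  have cb : Continuous b := hb.1.continuous
  have cai : Continuous (pd i a) := (sm_pd ha.1).continuous
  have caj : Continuous (pd j a) := (sm_pd ha.1).continuous
  have cbi : Continuous (pd i b) := (sm_pd hb.1).continuous
  have cbj : Continuous (pd j b) := (sm_pd hb.1).continuous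
  have cbji : Continuous (pd j (pd i b)) := (sm_pd (sm_pd hb.1)).continuous
  have kai : HasCompactSupport (pd i a) := hcs_pd ha.2
  have kaj : HasCompactSupport (pd j a) := hcs_pd ha.2
  have kbi : HasCompactSupport (pd i b) := hcs_pd hb.2
  -- all the integrals
  have I1 : Integrable (fun x => pd i a x * (pd j b x - pd j V x * b x) * Real.exp (-V x)) :=
    ci (by fun_prop) ((kai.mul_right).mul_right)
  have I2 : Integrable (fun x => a x * (pd i V x * (pd j b x - pd j V x * b x)) *
      Real.exp (-V x)) := ci (by fun_prop) ((ha.2.mul_right).mul_right)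
  have I3 : Integrable (fun x => pd j (pd i b) x * a x * Real.exp (-V x)) :=
    ci (by fun_prop) ((ha.2.mul_left).mul_right)
  have I4 : Integrable (fun x => hess V x i j * a x * b x * Real.exp (-V x)) :=
    ci (by fun_prop) ((hb.2.mul_left).mul_right)
  have I5 : Integrable (fun x => pd j V x * a x * pd i b x * Real.exp (-V x)) :=
    ci (by fun_prop) ((kbi.mul_left).mul_right)
  have I6 : Integrable (fun x => pd j a x * pd i b x * Real.exp (-V x)) :=
    ci (by fun_prop) ((kaj.mul_right).mul_right)
  have e1 : ∫ x, (pd i a x - pd i V x * a x) * (pd j b x - pd j V x * b x) * Real.exp (-V x) =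
      (∫ x, pd i a x * (pd j b x - pd j V x * b x) * Real.exp (-V x)) -
        ∫ x, a x * (pd i V x * (pd j b x - pd j V x * b x)) * Real.exp (-V x) := by
    rw [← integral_sub I1 I2]
    exact integral_congr_ae (Eventually.of_forall fun x => by ring)
  have e2 : ∫ x, a x * (pd i V x * (pd j b x - pd j V x * b x) -
      pd i (fun x => pd j b x - pd j V x * b x) x) * Real.exp (-V x) =
      (∫ x, a x * (pd i V x * (pd j b x - pd j V x * b x)) * Real.exp (-V x)) -
      (∫ x, pd j (pd i b) x * a x * Real.exp (-V x)) +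
        (∫ x, hess V x i j * a x * b x * Real.exp (-V x)) +
          ∫ x, pd j V x * a x * pd i b x * Real.exp (-V x) := by
    have h5 : ∫ x, a x * (pd i V x * (pd j b x - pd j V x * b x) -
        pd i (fun x => pd j b x - pd j V x * b x) x) * Real.exp (-V x) =
        ∫ x, ((a x * (pd i V x * (pd j b x - pd j V x * b x)) * Real.exp (-V x) -
          pd j (pd i b) x * a x * Real.exp (-V x)) + hess V x i j * a x * b x * Real.exp (-V x) +
          pd j V x * a x * pd i b x * Real.exp (-V x)) := by
      refine integral_congr_ae (Eventually.of_forall fun x => ?_)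
      simp only [hpt, hcomm]
      ring
    rw [h5]
    have h6 := integral_add ((I2.sub I3).add I4) I5
    have h7 := integral_add (I2.sub I3) I4
    have h8 := integral_sub I2 I3
    simp only [Pi.sub_apply, Pi.add_apply] at h6 h7 h8
    rw [h6, h7, h8]
  have e3 : ∫ x, pd i b x * (pd j V x * a x - pd j a x) * Real.exp (-V x) =
      (∫ x, pd j V x * a x * pd i b x * Real.exp (-V x)) -
        ∫ x, pd j a x * pd i b x * Real.exp (-V x) := by
    rw [← integral_sub I5 I6]
    exact integral_congr_ae (Eventually.of_forall fun x => by ring)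
  have e4 : ∫ x, (pd j a x * pd i b x + hess V x i j * a x * b x) * Real.exp (-V x) =
      (∫ x, pd j a x * pd i b x * Real.exp (-V x)) +
        ∫ x, hess V x i j * a x * b x * Real.exp (-V x) := by
    rw [← integral_add I6 I4]
    exact integral_congr_ae (Eventually.of_forall fun x => by ring)
  rw [e1, e4, h, e2, h2, e3]
  ring

theorem bp0 {V f : E n → ℝ} (hV : ContDiff ℝ ∞ V) (hf : ∃ K, LipschitzWith K f)
    (hc : HasCompactSupport f) (i : Fin n) :
    ∫ x, (pd i f x - pd i V x * f x) * Real.exp (-V x) = 0 := by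
  have cV := hV.continuous
  have cVi : Continuous (pd i V) := (sm_pd hV).continuous
  exact lip_transfer (ι := Unit) (fun x p q => (q () i - pd i V x * p ()) * Real.exp (-V x))
    (by fun_prop) (fun x => by simp) (fun s hs => bp0_smooth hV (hs ()) i) (fun _ => f)
    (fun _ => hf) (fun _ => hc)

/-- `f` and `g` Lipschitz with compact support -/
theorem bp2_cc {V f g : E n → ℝ} (hV : ContDiff ℝ ∞ V) (hf : ∃ K, LipschitzWith K f)
    (hfc : HasCompactSupport f) (hg : ∃ K, LipschitzWith K g) (hgc : HasCompactSupport g)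
    (i k : Fin n) :
    ∫ x, pd i f x * (pd k g x - pd k V x * g x) * Real.exp (-V x) =
      ∫ x, pd k f x * (pd i g x - pd i V x * g x) * Real.exp (-V x) := by
  have cV := hV.continuous
  have cVi : Continuous (pd i V) := (sm_pd hV).continuous
  have cVk : Continuous (pd k V) := (sm_pd hV).continuous
  refine lip_transfer_eq (ι := Bool)
    (fun x p q => q true i * (q false k - pd k V x * p false) * Real.exp (-V x))
    (fun x p q => q true k * (q false i - pd i V x * p false) * Real.exp (-V x))
    (by fun_prop) (by fun_prop) (fun x => by simp) (fun x => by simp) (fun s hs => ?_)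
    (fun b => if b then f else g) (fun b => by cases b <;> simpa) (fun b => by cases b <;> simpa)
  have h1 := bp2_smooth hV (hs true) (hs false) i k
  have h2 := bp2_smooth hV (hs true) (hs false) k i
  simp only
  rw [h1, h2]
  congr 1
  refine integral_congr_ae (Eventually.of_forall fun x => ?_)
  simp only
  rw [pd_comm (contDiff_infty.mp (hs true).1 2) k i x]

theorem pd_congr {f g : E n → ℝ} {x : E n} (h : f =ᶠ[𝓝 x] g) (i : Fin n) : pd i f x = pd i g x := by
  simp only [pd]
  rw [h.fderiv_eq]

/-- a smooth cut-off which is one near a given compact support -/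
theorem exists_cut {g : E n → ℝ} (hg : HasCompactSupport g) :
    ∃ χ : E n → ℝ, Test χ ∧ ∀ x ∈ tsupport g, χ =ᶠ[𝓝 x] fun _ => 1 := by
  obtain ⟨R, hR⟩ := hg.isCompact.isBounded.exists_norm_le
  have hr0 : 0 < |R| + 1 := by positivity
  let φ : ContDiffBump (0 : E n) := ⟨|R| + 1, |R| + 2, hr0, by linarith⟩
  refine ⟨φ, ⟨φ.contDiff, φ.hasCompactSupport⟩, fun x hx => ?_⟩
  have h1 : ‖x‖ < |R| + 1 := by
    have := hR x hx
    linarith [le_abs_self R]
  have h2 : ∀ᶠ y in 𝓝 x, ‖y‖ < |R| + 1 := continuous_norm.continuousAt.eventually (gt_mem_nhds h1)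
  filter_upwards [h2] with y hy
  exact φ.one_of_mem_closedBall (by simpa [φ] using hy.le)

theorem lip_mul_cc {f g : E n → ℝ} (hf : ∃ K, LipschitzWith K f) (hg : ∃ K, LipschitzWith K g)
    (hc : HasCompactSupport g) : ∃ K, LipschitzWith K (fun x => g x * f x) := by
  obtain ⟨Kf, hKf⟩ := hf
  obtain ⟨Kg, hKg⟩ := hg
  obtain ⟨R, hR⟩ := hc.isCompact.isBounded.exists_norm_le
  obtain ⟨B, hB⟩ := hc.exists_bound_of_continuous hKg.continuous
  obtain ⟨A, hA⟩ := (isCompact_closedBall (0 : E n) |R|).exists_bound_of_continuousOn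
    hKf.continuous.continuousOn
  have hB0 : 0 ≤ B := (norm_nonneg _).trans (hB 0)
  have hA0 : 0 ≤ A := (norm_nonneg _).trans (hA 0 (by simp))
  have hz : ∀ x, |R| < ‖x‖ → g x = 0 := by
    intro x hx
    by_contra h
    exact absurd ((hR x (subset_tsupport _ (Function.mem_support.mpr h))).trans (le_abs_self R))
      (not_le.mpr hx)
  have key : ∀ x y : E n, ‖y‖ ≤ |R| → |g x * f x - g y * f y| ≤ (B * Kf + A * Kg) * dist x y := by
    intro x y hy
    have h1 : |g x * f x - g y * f y| ≤ |g x| * |f x - f y| + |f y| * |g x - g y| := by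
      rw [← abs_mul, ← abs_mul]
      refine le_trans (le_of_eq ?_) (abs_add_le _ _)
      congr 1
      ring
    have h2 := hKf.dist_le_mul x y
    have h3 := hKg.dist_le_mul x y
    rw [Real.dist_eq] at h2 h3
    have h4 : |g x| ≤ B := hB x
    have h5 : |f y| ≤ A := hA y (by simpa using hy)
    calc |g x * f x - g y * f y| ≤ |g x| * |f x - f y| + |f y| * |g x - g y| := h1
      _ ≤ B * (Kf * dist x y) + A * (Kg * dist x y) := by gcongr
      _ = _ := by ring
  refine ⟨⟨B * Kf + A * Kg, by positivity⟩, LipschitzWith.of_dist_le_mul fun x y => ?_⟩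
  rw [Real.dist_eq]
  show |g x * f x - g y * f y| ≤ (B * Kf + A * Kg) * dist x y
  by_cases hy : ‖y‖ ≤ |R|
  · exact key x y hy
  · by_cases hx : ‖x‖ ≤ |R|
    · have := key y x hx
      rw [abs_sub_comm, dist_comm]
      exact this
    · rw [hz x (not_le.mp hx), hz y (not_le.mp hy)]
      simp only [zero_mul, sub_self, abs_zero]
      positivity

/-- `f` Lipschitz, `g` Lipschitz with compact support -/
theorem bp2 {V f g : E n → ℝ} (hV : ContDiff ℝ ∞ V) (hf : ∃ K, LipschitzWith K f)
    (hg : ∃ K, LipschitzWith K g) (hgc : HasCompactSupport g) (i k : Fin n) :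
    ∫ x, pd i f x * (pd k g x - pd k V x * g x) * Real.exp (-V x) =
      ∫ x, pd k f x * (pd i g x - pd i V x * g x) * Real.exp (-V x) := by
  obtain ⟨χ, hχ, h1⟩ := exists_cut hgc
  have hχL : ∃ K, LipschitzWith K χ := hχ.1.lipschitzWith_of_hasCompactSupport hχ.2 (by norm_num)
  have h := bp2_cc hV (f := fun x => χ x * f x) (lip_mul_cc hf hχL hχ.2) (hχ.2.mul_right) hg hgc i k
  have hloc : ∀ (a b : Fin n) (x : E n),
      pd a (fun x => χ x * f x) x * (pd b g x - pd b V x * g x) * Real.exp (-V x) =
        pd a f x * (pd b g x - pd b V x * g x) * Real.exp (-V x) := by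
    intro a b x
    by_cases hx : x ∈ tsupport g
    · have h2 : (fun x => χ x * f x) =ᶠ[𝓝 x] f := by
        filter_upwards [h1 x hx] with y hy
        rw [hy, one_mul]
      rw [pd_congr h2]
    · have h3 : g x = 0 := image_eq_zero_of_notMem_tsupport hx
      have h4 : pd b g x = 0 := by
        have h5 : g =ᶠ[𝓝 x] fun _ => 0 := by
          rw [notMem_tsupport_iff_eventuallyEq] at hx
          exact hx
        rw [pd_congr h5]
        simp [pd]
      rw [h3, h4]
      ring
  simp only [hloc] at h
  exact h

theorem bp3 {V a b : E n → ℝ} (hV : ContDiff ℝ ∞ V) (ha : ∃ K, LipschitzWith K a)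
    (hac : HasCompactSupport a) (hb : ∃ K, LipschitzWith K b) (hbc : HasCompactSupport b)
    (i j : Fin n) :
    ∫ x, (pd i a x - pd i V x * a x) * (pd j b x - pd j V x * b x) * Real.exp (-V x) =
      ∫ x, (pd j a x * pd i b x + hess V x i j * a x * b x) * Real.exp (-V x) := by
  have cV := hV.continuous
  have cVi : Continuous (pd i V) := (sm_pd hV).continuous
  have cVj : Continuous (pd j V) := (sm_pd hV).continuous
  have chh : Continuous (fun x => hess V x i j) := (sm_pd (sm_pd hV)).continuous
  exact lip_transfer_eq (ι := Bool)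
    (fun x p q => (q true i - pd i V x * p true) * (q false j - pd j V x * p false) *
      Real.exp (-V x))
    (fun x p q => (q true j * q false i + hess V x i j * p true * p false) * Real.exp (-V x))
    (by fun_prop) (by fun_prop) (fun x => by simp) (fun x => by simp)
    (fun s hs => bp3_smooth hV (hs true) (hs false) i j)
    (fun b' => if b' then a else b) (fun b => by cases b <;> simpa) (fun b => by cases b <;> simpa)

end Vale.Agent.P227.M.KX
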