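import Vale.Agent.P227.M.Bas

/-! # P227/M/KX: first order calculus of locally Lipschitz functions -/

open MeasureTheory Filter Topology Set Metric
open scoped NNReal

namespace Vale.Agent.P227.M.KX

variable {n : ℕ}

/-- vanishes outside a ball -/
def CS (f : E n → ℝ) : Prop := ∃ R : ℝ, 0 ≤ R ∧ ∀ x, R < ‖x‖ → f x = 0

/-- measurable and locally bounded -/
def Lb (f : E n → ℝ) : Prop := Measurable f ∧ ∀ R : ℝ, ∃ B : ℝ, ∀ x, ‖x‖ ≤ R → |f x| ≤ B

/-! ### locally Lipschitz functions -/

theorem ll_mul {f g : E n → ℝ} (hf : LocallyLipschitz f) (hg : LocallyLipschitz g) :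
    LocallyLipschitz (fun x => f x * g x) :=
  (contDiff_fst.mul contDiff_snd : ContDiff ℝ 1 (fun p : ℝ × ℝ => p.1 * p.2)).locallyLipschitz.comp
    (hf.prodMk hg)

theorem ll_add {f g : E n → ℝ} (hf : LocallyLipschitz f) (hg : LocallyLipschitz g) :
    LocallyLipschitz (fun x => f x + g x) :=
  (contDiff_fst.add contDiff_snd : ContDiff ℝ 1 (fun p : ℝ × ℝ => p.1 + p.2)).locallyLipschitz.comp
    (hf.prodMk hg)

theorem ll_sub {f g : E n → ℝ} (hf : LocallyLipschitz f) (hg : LocallyLipschitz g) :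
    LocallyLipschitz (fun x => f x - g x) :=
  (contDiff_fst.sub contDiff_snd : ContDiff ℝ 1 (fun p : ℝ × ℝ => p.1 - p.2)).locallyLipschitz.comp
    (hf.prodMk hg)

theorem ll_neg {f : E n → ℝ} (hf : LocallyLipschitz f) : LocallyLipschitz (fun x => -f x) :=
  (contDiff_id.neg : ContDiff ℝ 1 (fun p : ℝ => -p)).locallyLipschitz.comp hf

theorem ll_const (c : ℝ) : LocallyLipschitz (fun _ : E n => c) := LocallyLipschitz.const c

theorem ll_sum {ι : Type*} (s : Finset ι) {f : ι → E n → ℝ} (hf : ∀ i ∈ s, LocallyLipschitz (f i)) :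
    LocallyLipschitz (fun x => ∑ i ∈ s, f i x) := by
  classical
  induction s using Finset.induction_on with
  | empty => simpa using ll_const (n := n) 0
  | insert a s ha ih =>
    simp only [Finset.sum_insert ha]
    exact ll_add (hf a (Finset.mem_insert_self _ _)) (ih fun i hi => hf i (Finset.mem_insert_of_mem hi))

theorem ll_smooth {f : E n → ℝ} (hf : ContDiff ℝ 1 f) : LocallyLipschitz f := hf.locallyLipschitz

/-! ### `Lb` -/

theorem lb_of_cont {f : E n → ℝ} (hf : Continuous f) : Lb f := by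
  refine ⟨hf.measurable, fun R => ?_⟩
  obtain ⟨B, hB⟩ := (isCompact_closedBall (0 : E n) R).exists_bound_of_continuousOn hf.continuousOn
  exact ⟨B, fun x hx => hB x (by simpa using hx)⟩

theorem lb_mul {f g : E n → ℝ} (hf : Lb f) (hg : Lb g) : Lb (fun x => f x * g x) := by
  refine ⟨hf.1.mul hg.1, fun R => ?_⟩
  obtain ⟨B, hB⟩ := hf.2 R
  obtain ⟨D, hD⟩ := hg.2 R
  refine ⟨B * D, fun x hx => ?_⟩
  rw [abs_mul]
  exact mul_le_mul (hB x hx) (hD x hx) (abs_nonneg _) ((abs_nonneg _).trans (hB x hx))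

theorem lb_add {f g : E n → ℝ} (hf : Lb f) (hg : Lb g) : Lb (fun x => f x + g x) := by
  refine ⟨hf.1.add hg.1, fun R => ?_⟩
  obtain ⟨B, hB⟩ := hf.2 R
  obtain ⟨D, hD⟩ := hg.2 R
  exact ⟨B + D, fun x hx => (abs_add_le _ _).trans (add_le_add (hB x hx) (hD x hx))⟩

theorem lb_neg {f : E n → ℝ} (hf : Lb f) : Lb (fun x => -f x) := by
  refine ⟨hf.1.neg, fun R => ?_⟩
  obtain ⟨B, hB⟩ := hf.2 R
  exact ⟨B, fun x hx => by rw [abs_neg]; exact hB x hx⟩

theorem lb_sub {f g : E n → ℝ} (hf : Lb f) (hg : Lb g) : Lb (fun x => f x - g x) := by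
  simpa only [sub_eq_add_neg] using lb_add hf (lb_neg hg)

theorem lb_sum {ι : Type*} (s : Finset ι) {f : ι → E n → ℝ} (hf : ∀ i ∈ s, Lb (f i)) :
    Lb (fun x => ∑ i ∈ s, f i x) := by
  classical
  induction s using Finset.induction_on with
  | empty => simpa using lb_of_cont (n := n) continuous_const
  | insert a s ha ih =>
    simp only [Finset.sum_insert ha]
    exact lb_add (hf a (Finset.mem_insert_self _ _)) (ih fun i hi => hf i (Finset.mem_insert_of_mem hi))

theorem lb_ll {f : E n → ℝ} (hf : LocallyLipschitz f) : Lb f := lb_of_cont hf.continuous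

theorem lb_pd {f : E n → ℝ} (hf : LocallyLipschitz f) (i : Fin n) : Lb (pd i f) := by
  refine ⟨measurable_fderiv_apply_const ℝ f (ei i), fun R => ?_⟩
  obtain ⟨K, hK⟩ := LocallyLipschitzOn.exists_lipschitzOnWith_of_compact
    (isCompact_closedBall (0 : E n) (R + 1)) (hf.locallyLipschitzOn)
  refine ⟨K, fun x hx => ?_⟩
  have h1 : closedBall (0 : E n) (R + 1) ∈ 𝓝 x := by
    refine mem_of_superset (ball_mem_nhds x one_pos) fun y hy => ?_
    rw [mem_closedBall, dist_zero_right]
    have : ‖y‖ ≤ ‖y - x‖ + ‖x‖ := by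
      have := norm_add_le (y - x) x
      simpa using this
    have h2 : ‖y - x‖ < 1 := by simpa [dist_eq_norm] using hy
    linarith
  exact (abs_pd_le_norm f x i).trans (norm_fderiv_le_of_lipschitzOn ℝ h1 hK)

/-! ### `CS` -/

theorem cs_mul_left {f g : E n → ℝ} (hf : CS f) : CS (fun x => f x * g x) := by
  obtain ⟨R, hR, h⟩ := hf
  exact ⟨R, hR, fun x hx => by simp only [h x hx, zero_mul]⟩

theorem cs_mul_right {f g : E n → ℝ} (hg : CS g) : CS (fun x => f x * g x) := by
  obtain ⟨R, hR, h⟩ := hg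
  exact ⟨R, hR, fun x hx => by simp only [h x hx, mul_zero]⟩

theorem cs_add {f g : E n → ℝ} (hf : CS f) (hg : CS g) : CS (fun x => f x + g x) := by
  obtain ⟨R, hR, h⟩ := hf
  obtain ⟨R', hR', h'⟩ := hg
  refine ⟨max R R', le_max_of_le_left hR, fun x hx => ?_⟩
  simp only [h x (lt_of_le_of_lt (le_max_left _ _) hx), h' x (lt_of_le_of_lt (le_max_right _ _) hx), add_zero]

theorem cs_neg {f : E n → ℝ} (hf : CS f) : CS (fun x => -f x) := by
  obtain ⟨R, hR, h⟩ := hf
  exact ⟨R, hR, fun x hx => by simp only [h x hx, neg_zero]⟩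

theorem cs_sub {f g : E n → ℝ} (hf : CS f) (hg : CS g) : CS (fun x => f x - g x) := by
  simpa only [sub_eq_add_neg] using cs_add hf (cs_neg hg)

theorem cs_sum {ι : Type*} (s : Finset ι) {f : ι → E n → ℝ} (hf : ∀ i ∈ s, CS (f i)) :
    CS (fun x => ∑ i ∈ s, f i x) := by
  classical
  induction s using Finset.induction_on with
  | empty => exact ⟨0, le_rfl, fun x _ => by simp⟩
  | insert a s ha ih =>
    simp only [Finset.sum_insert ha]
    exact cs_add (hf a (Finset.mem_insert_self _ _)) (ih fun i hi => hf i (Finset.mem_insert_of_mem hi))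

theorem cs_of_hcs {f : E n → ℝ} (hf : HasCompactSupport f) : CS f := by
  obtain ⟨R, hR⟩ := hf.isCompact.isBounded.subset_closedBall (0 : E n)
  refine ⟨max R 0, le_max_right _ _, fun x hx => ?_⟩
  refine image_eq_zero_of_notMem_tsupport fun h => ?_
  have := hR h
  rw [mem_closedBall, dist_zero_right] at this
  exact absurd this (not_le.2 (lt_of_le_of_lt (le_max_left _ _) hx))

theorem hcs_of_cs {f : E n → ℝ} (hf : CS f) : HasCompactSupport f := by
  obtain ⟨R, hR, h⟩ := hf
  refine HasCompactSupport.intro (isCompact_closedBall (0 : E n) R) fun x hx => h x ?_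
  simpa using hx

theorem cs_pd {f : E n → ℝ} (hf : CS f) (i : Fin n) : CS (pd i f) := by
  obtain ⟨R, hR, h⟩ := hf
  refine ⟨R, hR, fun x hx => ?_⟩
  have h1 : f =ᶠ[𝓝 x] fun _ => 0 := by
    have : {y : E n | R < ‖y‖} ∈ 𝓝 x := (isOpen_lt continuous_const continuous_norm).mem_nhds hx
    exact mem_of_superset this fun y hy => h y hy
  rw [pd, h1.fderiv_eq]
  simp

theorem integrable_of {f : E n → ℝ} (hf : Lb f) (hc : CS f) : Integrable f := by
  obtain ⟨R, hR, h⟩ := hc
  obtain ⟨B, hB⟩ := hf.2 R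
  have h1 : Integrable ((closedBall (0 : E n) R).indicator fun _ => |B|) := by
    rw [integrable_indicator_iff measurableSet_closedBall]
    exact integrableOn_const (isCompact_closedBall (0 : E n) R).measure_lt_top.ne
  refine h1.mono' hf.1.aestronglyMeasurable (Eventually.of_forall fun x => ?_)
  by_cases hx : R < ‖x‖
  · rw [h x hx, norm_zero]
    exact indicator_nonneg (fun _ _ => abs_nonneg _) _
  · rw [indicator_of_mem (by simpa using hx)]
    exact (hB x (not_lt.1 hx)).trans (le_abs_self B)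

/-! ### Lipschitz and differentiable almost everywhere -/

theorem lip_of_cs {f : E n → ℝ} (hf : LocallyLipschitz f) (hc : CS f) : ∃ K, LipschitzWith K f := by
  obtain ⟨R, hR, h⟩ := hc
  obtain ⟨K, hK⟩ := LocallyLipschitzOn.exists_lipschitzOnWith_of_compact
    (isCompact_closedBall (0 : E n) (R + 1)) (hf.locallyLipschitzOn)
  obtain ⟨B, hB⟩ := (lb_ll hf).2 R
  have hkey : ∀ x y : E n, ‖x‖ ≤ R + 1 → R + 1 < ‖y‖ → |f x - f y| ≤ max (K : ℝ) |B| * ‖x - y‖ := by
    intro x y hx hy
    rw [h y (by linarith), sub_zero]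
    by_cases hxR : ‖x‖ ≤ R
    · have h1 : 1 ≤ ‖x - y‖ := by
        have := norm_sub_norm_le y x
        rw [norm_sub_rev] at this
        linarith
      calc |f x| ≤ B := hB x hxR
        _ ≤ max (K : ℝ) |B| := (le_abs_self B).trans (le_max_right _ _)
        _ ≤ max (K : ℝ) |B| * ‖x - y‖ := le_mul_of_one_le_right (le_max_of_le_right (abs_nonneg _)) h1
    · rw [h x (not_le.1 hxR), abs_zero]
      exact mul_nonneg (le_max_of_le_right (abs_nonneg _)) (norm_nonneg _)
  refine ⟨Real.toNNReal (max (K : ℝ) |B|), LipschitzWith.of_dist_le_mul fun x y => ?_⟩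
  rw [Real.coe_toNNReal _ (le_max_of_le_right (abs_nonneg _)), Real.dist_eq, dist_eq_norm]
  rcases le_or_gt ‖x‖ (R + 1) with hx | hx <;> rcases le_or_gt ‖y‖ (R + 1) with hy | hy
  · have := hK.dist_le_mul x (by simpa using hx) y (by simpa using hy)
    rw [Real.dist_eq, dist_eq_norm] at this
    exact this.trans (mul_le_mul_of_nonneg_right (le_max_left _ _) (norm_nonneg _))
  · exact hkey x y hx hy
  · rw [abs_sub_comm, norm_sub_rev]
    exact hkey y x hy hx
  · rw [h x (by linarith), h y (by linarith), sub_zero, abs_zero]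
    exact mul_nonneg (le_max_of_le_right (abs_nonneg _)) (norm_nonneg _)

/-- smooth cut-off, equal to one on the ball of radius `m + 1` -/
noncomputable def cut (n m : ℕ) : ContDiffBump (0 : E n) where
  rIn := (m : ℝ) + 1
  rOut := (m : ℝ) + 2
  rIn_pos := by positivity
  rIn_lt_rOut := by linarith

theorem ll_cut (m : ℕ) : LocallyLipschitz (cut n m : E n → ℝ) := ((cut n m).contDiff).locallyLipschitz

theorem cs_cut (m : ℕ) : CS (cut n m : E n → ℝ) := cs_of_hcs (cut n m).hasCompactSupport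

theorem cut_one {m : ℕ} {x : E n} (hx : ‖x‖ ≤ (m : ℝ) + 1) : cut n m x = 1 :=
  (cut n m).one_of_mem_closedBall (by simpa [cut] using hx)

theorem ll_ae {f : E n → ℝ} (hf : LocallyLipschitz f) : ∀ᵐ x, DifferentiableAt ℝ f x := by
  have h1 : ∀ m : ℕ, ∀ᵐ x, DifferentiableAt ℝ (fun x => cut n m x * f x) x := by
    intro m
    obtain ⟨K, hK⟩ := lip_of_cs (ll_mul (ll_cut m) hf) (cs_mul_left (cs_cut m))
    exact hK.ae_differentiableAt
  filter_upwards [ae_all_iff.2 h1] with x hx
  obtain ⟨m, hm⟩ := exists_nat_gt ‖x‖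
  refine (hx m).congr_of_eventuallyEq ?_
  have h2 : {y : E n | ‖y‖ < (m : ℝ)} ∈ 𝓝 x := (isOpen_lt continuous_norm continuous_const).mem_nhds hm
  refine mem_of_superset h2 fun y hy => ?_
  have h3 : ‖y‖ ≤ (m : ℝ) + 1 := by
    have : ‖y‖ < (m : ℝ) := hy
    linarith
  simp [cut_one h3]

/-! ### rules for `pd` -/

theorem pd_add' {f g : E n → ℝ} {x : E n} (hf : DifferentiableAt ℝ f x) (hg : DifferentiableAt ℝ g x) (i : Fin n) :
    pd i (fun x => f x + g x) x = pd i f x + pd i g x := by
  rw [pd, fderiv_fun_add hf hg]; rfl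

theorem pd_sub' {f g : E n → ℝ} {x : E n} (hf : DifferentiableAt ℝ f x) (hg : DifferentiableAt ℝ g x) (i : Fin n) :
    pd i (fun x => f x - g x) x = pd i f x - pd i g x := by
  rw [pd, fderiv_fun_sub hf hg]; rfl

theorem pd_neg' {f : E n → ℝ} {x : E n} (i : Fin n) : pd i (fun x => -f x) x = -pd i f x := by
  rw [pd, fderiv_fun_neg]; rfl

theorem pd_mul' {f g : E n → ℝ} {x : E n} (hf : DifferentiableAt ℝ f x) (hg : DifferentiableAt ℝ g x) (i : Fin n) :
    pd i (fun x => f x * g x) x = pd i f x * g x + f x * pd i g x := by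
  rw [pd, fderiv_fun_mul hf hg]
  simp only [_root_.add_apply, _root_.smul_apply, smul_eq_mul, pd]
  ring

theorem pd_sum' {ι : Type*} (s : Finset ι) {f : ι → E n → ℝ} {x : E n}
    (hf : ∀ j ∈ s, DifferentiableAt ℝ (f j) x) (i : Fin n) :
    pd i (fun x => ∑ j ∈ s, f j x) x = ∑ j ∈ s, pd i (f j) x := by
  rw [pd, fderiv_fun_sum hf]
  simp [pd]

theorem pd_const' (c : ℝ) (i : Fin n) (x : E n) : pd i (fun _ => c) x = 0 := by simp [pd]

theorem pd_coord (a i : Fin n) (x : E n) : pd i (fun x : E n => x a) x = if a = i then 1 else 0 := by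
  have h : HasFDerivAt (fun x : E n => x a) (EuclideanSpace.proj a : E n →L[ℝ] ℝ) x :=
    (EuclideanSpace.proj a : E n →L[ℝ] ℝ).hasFDerivAt
  rw [pd, h.fderiv]
  simp [ei]

theorem ll_coord (a : Fin n) : LocallyLipschitz (fun x : E n => x a) :=
  ((EuclideanSpace.proj a : E n →L[ℝ] ℝ).contDiff (n := 1)).locallyLipschitz

theorem pd_exp {V : E n → ℝ} {x : E n} (hV : DifferentiableAt ℝ V x) (i : Fin n) :
    pd i (fun x => Real.exp (-V x)) x = -pd i V x * Real.exp (-V x) := by
  have h : HasFDerivAt (fun x => Real.exp (-V x)) (Real.exp (-V x) • (-fderiv ℝ V x)) x :=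
    hV.hasFDerivAt.neg.exp
  rw [pd, h.fderiv]
  simp [pd]
  ring

/-! ### the two basic facts on integrals -/

theorem integral_pd_zero {f : E n → ℝ} (hf : LocallyLipschitz f) (hc : CS f) (i : Fin n) :
    ∫ x, pd i f x = 0 := by
  obtain ⟨K, hK⟩ := lip_of_cs hf hc
  have h1 := LipschitzWith.integral_lineDeriv_mul_eq (μ := volume) (LipschitzWith.const (1 : ℝ) : LipschitzWith 0 (fun _ : E n => (1 : ℝ)))
    hK (hcs_of_cs hc) (-ei i)
  have h2 : ∀ x : E n, lineDeriv ℝ (fun _ : E n => (1 : ℝ)) x (-ei i) = 0 := fun x => by simp [lineDeriv]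
  simp only [h2, zero_mul, integral_zero, neg_neg, mul_one] at h1
  rw [h1]
  refine integral_congr_ae ?_
  filter_upwards [ll_ae hf] with x hx
  rw [hx.lineDeriv_eq_fderiv]; rfl

theorem integral_pd_mul {f g : E n → ℝ} (hf : LocallyLipschitz f) (hg : LocallyLipschitz g) (hc : CS g) (i : Fin n) :
    ∫ x, pd i f x * g x = -∫ x, f x * pd i g x := by
  have h := integral_pd_zero (ll_mul hf hg) (cs_mul_right hc) i
  have h1 : ∫ x, pd i (fun x => f x * g x) x = ∫ x, (pd i f x * g x + f x * pd i g x) := by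
    refine integral_congr_ae ?_
    filter_upwards [ll_ae hf, ll_ae hg] with x h1 h2
    exact pd_mul' h1 h2 i
  rw [h1, integral_add (integrable_of (lb_mul (lb_pd hf i) (lb_ll hg)) (cs_mul_right hc))
    (integrable_of (lb_mul (lb_ll hf) (lb_pd hg i)) (cs_mul_right (cs_pd hc i)))] at h
  linarith

theorem lip_translate {f : E n → ℝ} {K : ℝ≥0} (hf : LipschitzWith K f) (v : E n) :
    LipschitzWith K (fun x => f (x + v)) := by
  refine LipschitzWith.of_dist_le_mul fun x y => ?_
  have := hf.dist_le_mul (x + v) (y + v)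
  simpa using this

theorem pd_translate (f : E n → ℝ) (v : E n) (i : Fin n) (x : E n) :
    pd i (fun x => f (x + v)) x = pd i f (x + v) := by
  rw [pd, pd, fderiv_comp_add_right]

theorem cs_translate {f : E n → ℝ} (hf : CS f) (v : E n) : CS (fun x => f (x + v)) := by
  obtain ⟨R, hR, h⟩ := hf
  refine ⟨R + ‖v‖, by positivity, fun x hx => h _ ?_⟩
  have := norm_sub_norm_le x (-v)
  rw [norm_neg, sub_neg_eq_add] at this
  linarith

/-- symmetry of weak second derivatives, first order form -/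
theorem sw_aux {W Y : E n → ℝ} (hW : LocallyLipschitz W) (hWc : CS W) (hY : LocallyLipschitz Y) (hYc : CS Y)
    (a e : Fin n) : ∫ x, pd a W x * pd e Y x = ∫ x, pd e W x * pd a Y x := by
  obtain ⟨K, hK⟩ := lip_of_cs hW hWc
  obtain ⟨D, hD⟩ := lip_of_cs hY hYc
  have hA := LipschitzWith.integral_inv_smul_sub_mul_tendsto_integral_lineDeriv_mul (μ := volume)
    hK (integrable_of (lb_pd hY e) (cs_pd hYc e)) (ei a)
  have hB := LipschitzWith.integral_inv_smul_sub_mul_tendsto_integral_lineDeriv_mul (μ := volume)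
    hD (integrable_of (lb_pd hW e) (cs_pd hWc e)) (-ei a)
  have hAB : ∀ t : ℝ, ∫ x, (t⁻¹ • (W (x + t • ei a) - W x)) * pd e Y x =
      -∫ x, (t⁻¹ • (Y (x + t • -ei a) - Y x)) * pd e W x := by
    intro t
    have hWt : LocallyLipschitz (fun x => W (x + t • ei a)) := (lip_translate hK _).locallyLipschitz
    have hYt : LocallyLipschitz (fun x => Y (x + t • -ei a)) := (lip_translate hD _).locallyLipschitz
    have hWtc : CS (fun x => W (x + t • ei a)) := cs_translate hWc _
    have h1 : ∫ x, (W (x + t • ei a) - W x) * pd e Y x = -∫ x, (pd e W (x + t • ei a) - pd e W x) * Y x := by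
      have := integral_pd_mul (ll_sub hWt hW) hY hYc e
      rw [eq_neg_iff_add_eq_zero, add_comm, ← eq_neg_iff_add_eq_zero] at this
      rw [this]
      congr 1
      refine integral_congr_ae ?_
      filter_upwards [ll_ae hWt, ll_ae hW] with x h1 h2
      rw [pd_sub' h1 h2, pd_translate]
    have h2 : ∫ x, pd e W (x + t • ei a) * Y x = ∫ x, pd e W x * Y (x + t • -ei a) := by
      have := integral_add_right_eq_self (μ := (volume : Measure (E n)))
        (fun x => pd e W (x + t • ei a) * Y x) (t • -ei a)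
      rw [← this]
      refine integral_congr_ae (Eventually.of_forall fun x => ?_)
      simp
    have i1 : Integrable (fun x => pd e W (x + t • ei a) * Y x) := by
      have := integrable_of (lb_mul (lb_pd hWt e) (lb_ll hY)) (cs_mul_right hYc)
      refine this.congr (Eventually.of_forall fun x => ?_)
      simp only [pd_translate]
    have i2 : Integrable (fun x => pd e W x * Y x) := integrable_of (lb_mul (lb_pd hW e) (lb_ll hY)) (cs_mul_right hYc)
    have i3 : Integrable (fun x => pd e W x * Y (x + t • -ei a)) :=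
      integrable_of (lb_mul (lb_pd hW e) (lb_ll hYt)) (cs_mul_left (cs_pd hWc e))
    have h3 : ∫ x, (pd e W (x + t • ei a) - pd e W x) * Y x = ∫ x, (Y (x + t • -ei a) - Y x) * pd e W x := by
      have e1 : ∫ x, (pd e W (x + t • ei a) - pd e W x) * Y x =
          (∫ x, pd e W (x + t • ei a) * Y x) - ∫ x, pd e W x * Y x := by
        rw [← integral_sub i1 i2]
        refine integral_congr_ae (Eventually.of_forall fun x => ?_)
        simp only; ring
      have e2 : ∫ x, (Y (x + t • -ei a) - Y x) * pd e W x =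
          (∫ x, pd e W x * Y (x + t • -ei a)) - ∫ x, pd e W x * Y x := by
        rw [← integral_sub i3 i2]
        refine integral_congr_ae (Eventually.of_forall fun x => ?_)
        simp only; ring
      rw [e1, e2, h2]
    simp only [smul_eq_mul, mul_assoc, integral_const_mul]
    rw [h1, h3]
    ring
  have hB' := hB.neg
  simp only [hAB] at hA
  have h := tendsto_nhds_unique hA hB'
  have l1 : ∫ x, lineDeriv ℝ W x (ei a) * pd e Y x = ∫ x, pd a W x * pd e Y x := by
    refine integral_congr_ae ?_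
    filter_upwards [ll_ae hW] with x hx
    rw [hx.lineDeriv_eq_fderiv]; rfl
  have l2 : ∫ x, lineDeriv ℝ Y x (-ei a) * pd e W x = -∫ x, pd e W x * pd a Y x := by
    rw [← integral_neg]
    refine integral_congr_ae ?_
    filter_upwards [ll_ae hY] with x hx
    rw [hx.lineDeriv_eq_fderiv]
    simp [pd]
    ring
  rw [l1, l2, neg_neg] at h
  exact h

theorem sw {W Y : E n → ℝ} (hW : LocallyLipschitz W) (hY : LocallyLipschitz Y) (hYc : CS Y)
    (a e : Fin n) : ∫ x, pd a W x * pd e Y x = ∫ x, pd e W x * pd a Y x := by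
  obtain ⟨R, hR, h⟩ := hYc
  obtain ⟨m, hm⟩ := exists_nat_gt R
  have hYc : CS Y := ⟨R, hR, h⟩
  have h1 := sw_aux (ll_mul (ll_cut m) hW) (cs_mul_left (cs_cut m)) hY hYc a e
  have h2 : ∀ i j : Fin n, ∀ x, pd i (fun x => cut n m x * W x) x * pd j Y x = pd i W x * pd j Y x := by
    intro i j x
    by_cases hx : R < ‖x‖
    · have : pd j Y x = 0 := by
        have h1 : Y =ᶠ[𝓝 x] fun _ => 0 := by
          have : {y : E n | R < ‖y‖} ∈ 𝓝 x := (isOpen_lt continuous_const continuous_norm).mem_nhds hx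
          exact mem_of_superset this fun y hy => h y hy
        rw [pd, h1.fderiv_eq]
        simp
      rw [this, mul_zero, mul_zero]
    · congr 1
      have hx' : ‖x‖ < (m : ℝ) := lt_of_le_of_lt (not_lt.1 hx) hm
      have h2 : {y : E n | ‖y‖ < (m : ℝ)} ∈ 𝓝 x := (isOpen_lt continuous_norm continuous_const).mem_nhds hx'
      have h3 : (fun x => cut n m x * W x) =ᶠ[𝓝 x] W := by
        refine mem_of_superset h2 fun y hy => ?_
        have h3 : ‖y‖ ≤ (m : ℝ) + 1 := by
          have : ‖y‖ < (m : ℝ) := hy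
          linarith
        simp [cut_one h3]
      rw [pd, pd, h3.fderiv_eq]
  simpa only [h2] using h1

end Vale.Agent.P227.M.KX
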